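import Mathlib

/-! Mixed scales (board P042, [600]): of the two exponents
`b` ([B] with root = smallest leg) and `h` (pin all legs `p < P`, Theorem H for the others)
one is always at most `-(c/(8 C1))` times the total log-length.
`lam` = total exponent of the legs `p < P`, `d` = number of legs `p >= P`,
`E` = their total exponent, `1 <= e_i <= C1`. -/

namespace Vale.Agent.P042.H600

theorem dich {lam d E c C1 : ℝ} (hlam : 0 ≤ lam) (hd : 0 ≤ d) (hE1 : E ≤ C1 * d)
    (hc : 0 < c) (hc1 : c ≤ 1) (hC : 2 ≤ C1) :
    min (-lam / 2 + E / 2 - d) (lam / 2 + (1 - c) * d - E / 2)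
      ≤ -(c / (8 * C1)) * (lam + E) := by
  have hC0 : 0 < C1 := by linarith
  have h8 : 0 < 8 * C1 := by linarith
  have hcC : c / (8 * C1) * (8 * C1) = c := by field_simp
  set k := c / (8 * C1) with hk
  have hk0 : 0 < k := by positivity
  have hkC : k * C1 = c / 8 := by linarith
  have hk16 : k ≤ 1 / 16 := by
    rw [hk, div_le_iff₀ h8]
    nlinarith
  have hkE : k * E ≤ c / 8 * d := by
    calc k * E ≤ k * (C1 * d) := mul_le_mul_of_nonneg_left hE1 hk0.le
      _ = c / 8 * d := by rw [← mul_assoc, hkC]
  rcases le_or_gt (2 * C1 * d) lam with h | h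
  · refine le_trans (min_le_left _ _) ?_
    have h1 : k * lam ≤ 1 / 16 * lam := mul_le_mul_of_nonneg_right hk16 hlam
    have h2 : c / 8 * d ≤ 1 / 8 * d := by nlinarith
    nlinarith
  · have hkl : k * lam ≤ c / 4 * d := by
      calc k * lam ≤ k * (2 * C1 * d) := mul_le_mul_of_nonneg_left h.le hk0.le
        _ = 2 * (k * C1) * d := by ring
        _ = c / 4 * d := by rw [hkC]; ring
    have hmin : min (-lam / 2 + E / 2 - d) (lam / 2 + (1 - c) * d - E / 2) ≤ -(c * d) / 2 := by
      rcases le_total (-lam / 2 + E / 2 - d) (lam / 2 + (1 - c) * d - E / 2) with h' | h'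
      · rw [min_eq_left h']; linarith
      · rw [min_eq_right h']; linarith
    have hcd : 0 ≤ c * d := by positivity
    nlinarith

end Vale.Agent.P042.H600
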